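import Vale.Agent.P355.H909V.Seg

namespace Vale.Agent.P355.H909Y

open Vale.Agent.P355 Vale.Agent.P355.H129V
open Vale.Agent.P355.H387 (CT evL Cls)
open Vale.Agent.P355.H637 (CV)
open Vale.Agent.P355.H909V (SG U4)

def fl0 : List (Fg × Fg) := [
 (⟨[], [(nat_lit 9, nat_lit 6, nat_lit 1)], nat_lit 1, nat_lit 0, nat_lit 0⟩, ⟨[], [(nat_lit 9, nat_lit 6, nat_lit 1)], nat_lit 1, nat_lit 0, nat_lit 0⟩),
 (⟨[], [], nat_lit 0, nat_lit 0, nat_lit 0⟩, ⟨[], [], nat_lit 0, nat_lit 0, nat_lit 0⟩),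
 (⟨[], [(nat_lit 9, nat_lit 6, nat_lit 4)], nat_lit 0, nat_lit 0, nat_lit 0⟩, ⟨[], [(nat_lit 9, nat_lit 6, nat_lit 4)], nat_lit 0, nat_lit 0, nat_lit 0⟩),
 (⟨[], [(nat_lit 9, nat_lit 6, nat_lit 3)], nat_lit 1, nat_lit 0, nat_lit 0⟩, ⟨[], [(nat_lit 9, nat_lit 6, nat_lit 3)], nat_lit 1, nat_lit 0, nat_lit 0⟩),
 (⟨[], [(nat_lit 9, nat_lit 6, nat_lit 2)], nat_lit 0, nat_lit 0, nat_lit 0⟩, ⟨[], [(nat_lit 9, nat_lit 6, nat_lit 2)], nat_lit 0, nat_lit 0, nat_lit 0⟩),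
 (⟨[(nat_lit 9, nat_lit 12, nat_lit 2)], [(nat_lit 9, nat_lit 6, nat_lit 3)], nat_lit 1, nat_lit 0, nat_lit 1⟩, ⟨[(nat_lit 18, nat_lit 6, nat_lit 2)], [(nat_lit 9, nat_lit 6, nat_lit 3)], nat_lit 1, nat_lit 1, nat_lit 0⟩),
 (⟨[(nat_lit 9, nat_lit 12, nat_lit 3)], [(nat_lit 9, nat_lit 6, nat_lit 3)], nat_lit 0, nat_lit 0, nat_lit 1⟩, ⟨[(nat_lit 18, nat_lit 6, nat_lit 3)], [(nat_lit 9, nat_lit 6, nat_lit 3)], nat_lit 0, nat_lit 1, nat_lit 0⟩),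
 (⟨[], [(nat_lit 9, nat_lit 6, nat_lit 2), (nat_lit 9, nat_lit 12, nat_lit 2)], nat_lit 0, nat_lit 0, nat_lit 1⟩, ⟨[], [(nat_lit 9, nat_lit 6, nat_lit 2), (nat_lit 18, nat_lit 6, nat_lit 2)], nat_lit 0, nat_lit 1, nat_lit 0⟩),
 (⟨[(nat_lit 9, nat_lit 12, nat_lit 2)], [(nat_lit 9, nat_lit 6, nat_lit 2)], nat_lit 0, nat_lit 0, nat_lit 1⟩, ⟨[(nat_lit 18, nat_lit 6, nat_lit 2)], [(nat_lit 9, nat_lit 6, nat_lit 2)], nat_lit 0, nat_lit 1, nat_lit 0⟩),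
 (⟨[(nat_lit 9, nat_lit 12, nat_lit 3)], [(nat_lit 9, nat_lit 6, nat_lit 2)], nat_lit 1, nat_lit 0, nat_lit 1⟩, ⟨[(nat_lit 18, nat_lit 6, nat_lit 3)], [(nat_lit 9, nat_lit 6, nat_lit 2)], nat_lit 1, nat_lit 1, nat_lit 0⟩),
 (⟨[], [(nat_lit 9, nat_lit 6, nat_lit 1), (nat_lit 9, nat_lit 12, nat_lit 3)], nat_lit 0, nat_lit 0, nat_lit 1⟩, ⟨[], [(nat_lit 9, nat_lit 6, nat_lit 1), (nat_lit 18, nat_lit 6, nat_lit 3)], nat_lit 0, nat_lit 1, nat_lit 0⟩),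
 (⟨[], [(nat_lit 9, nat_lit 6, nat_lit 1), (nat_lit 9, nat_lit 12, nat_lit 2)], nat_lit 1, nat_lit 0, nat_lit 1⟩, ⟨[], [(nat_lit 9, nat_lit 6, nat_lit 1), (nat_lit 18, nat_lit 6, nat_lit 2)], nat_lit 1, nat_lit 1, nat_lit 0⟩),
 (⟨[(nat_lit 9, nat_lit 12, nat_lit 2)], [(nat_lit 9, nat_lit 6, nat_lit 1)], nat_lit 1, nat_lit 0, nat_lit 1⟩, ⟨[(nat_lit 18, nat_lit 6, nat_lit 2)], [(nat_lit 9, nat_lit 6, nat_lit 1)], nat_lit 1, nat_lit 1, nat_lit 0⟩),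
 (⟨[(nat_lit 9, nat_lit 12, nat_lit 3)], [(nat_lit 9, nat_lit 6, nat_lit 1)], nat_lit 0, nat_lit 0, nat_lit 1⟩, ⟨[(nat_lit 18, nat_lit 6, nat_lit 3)], [(nat_lit 9, nat_lit 6, nat_lit 1)], nat_lit 0, nat_lit 1, nat_lit 0⟩),
 (⟨[], [(nat_lit 9, nat_lit 12, nat_lit 4)], nat_lit 0, nat_lit 0, nat_lit 1⟩, ⟨[], [(nat_lit 18, nat_lit 6, nat_lit 4)], nat_lit 0, nat_lit 1, nat_lit 0⟩),
 (⟨[], [(nat_lit 9, nat_lit 12, nat_lit 3)], nat_lit 1, nat_lit 0, nat_lit 1⟩, ⟨[], [(nat_lit 18, nat_lit 6, nat_lit 3)], nat_lit 1, nat_lit 1, nat_lit 0⟩),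
 (⟨[], [(nat_lit 9, nat_lit 12, nat_lit 2)], nat_lit 0, nat_lit 0, nat_lit 1⟩, ⟨[], [(nat_lit 18, nat_lit 6, nat_lit 2)], nat_lit 0, nat_lit 1, nat_lit 0⟩),
 (⟨[(nat_lit 9, nat_lit 18, nat_lit 2)], [(nat_lit 9, nat_lit 6, nat_lit 1), (nat_lit 9, nat_lit 12, nat_lit 2)], nat_lit 1, nat_lit 0, nat_lit 2⟩, ⟨[(nat_lit 27, nat_lit 6, nat_lit 2)], [(nat_lit 9, nat_lit 6, nat_lit 1), (nat_lit 18, nat_lit 6, nat_lit 2)], nat_lit 1, nat_lit 2, nat_lit 0⟩),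
 (⟨[(nat_lit 9, nat_lit 18, nat_lit 3)], [(nat_lit 9, nat_lit 6, nat_lit 1), (nat_lit 9, nat_lit 12, nat_lit 2)], nat_lit 0, nat_lit 0, nat_lit 2⟩, ⟨[(nat_lit 27, nat_lit 6, nat_lit 3)], [(nat_lit 9, nat_lit 6, nat_lit 1), (nat_lit 18, nat_lit 6, nat_lit 2)], nat_lit 0, nat_lit 2, nat_lit 0⟩),
 (⟨[(nat_lit 9, nat_lit 18, nat_lit 2)], [(nat_lit 9, nat_lit 12, nat_lit 3)], nat_lit 1, nat_lit 0, nat_lit 2⟩, ⟨[(nat_lit 27, nat_lit 6, nat_lit 2)], [(nat_lit 18, nat_lit 6, nat_lit 3)], nat_lit 1, nat_lit 2, nat_lit 0⟩),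
 (⟨[(nat_lit 9, nat_lit 18, nat_lit 3)], [(nat_lit 9, nat_lit 12, nat_lit 3)], nat_lit 0, nat_lit 0, nat_lit 2⟩, ⟨[(nat_lit 27, nat_lit 6, nat_lit 3)], [(nat_lit 18, nat_lit 6, nat_lit 3)], nat_lit 0, nat_lit 2, nat_lit 0⟩),
 (⟨[], [(nat_lit 9, nat_lit 12, nat_lit 2), (nat_lit 9, nat_lit 18, nat_lit 2)], nat_lit 0, nat_lit 0, nat_lit 2⟩, ⟨[], [(nat_lit 18, nat_lit 6, nat_lit 2), (nat_lit 27, nat_lit 6, nat_lit 2)], nat_lit 0, nat_lit 2, nat_lit 0⟩),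
 (⟨[(nat_lit 9, nat_lit 18, nat_lit 2)], [(nat_lit 9, nat_lit 12, nat_lit 2)], nat_lit 0, nat_lit 0, nat_lit 2⟩, ⟨[(nat_lit 27, nat_lit 6, nat_lit 2)], [(nat_lit 18, nat_lit 6, nat_lit 2)], nat_lit 0, nat_lit 2, nat_lit 0⟩),
 (⟨[(nat_lit 9, nat_lit 12, nat_lit 1), (nat_lit 18, nat_lit 6, nat_lit 2)], [(nat_lit 9, nat_lit 6, nat_lit 3), (nat_lit 18, nat_lit 12, nat_lit 2)], nat_lit 0, nat_lit 1, nat_lit 1⟩, ⟨[(nat_lit 18, nat_lit 6, nat_lit 1), (nat_lit 9, nat_lit 12, nat_lit 2)], [(nat_lit 9, nat_lit 6, nat_lit 3), (nat_lit 18, nat_lit 12, nat_lit 2)], nat_lit 0, nat_lit 1, nat_lit 1⟩),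
 (⟨[(nat_lit 9, nat_lit 12, nat_lit 2), (nat_lit 18, nat_lit 6, nat_lit 2)], [(nat_lit 9, nat_lit 6, nat_lit 3), (nat_lit 18, nat_lit 12, nat_lit 2)], nat_lit 1, nat_lit 1, nat_lit 1⟩, ⟨[(nat_lit 18, nat_lit 6, nat_lit 2), (nat_lit 9, nat_lit 12, nat_lit 2)], [(nat_lit 9, nat_lit 6, nat_lit 3), (nat_lit 18, nat_lit 12, nat_lit 2)], nat_lit 1, nat_lit 1, nat_lit 1⟩),
 (⟨[(nat_lit 9, nat_lit 12, nat_lit 2), (nat_lit 18, nat_lit 6, nat_lit 2)], [(nat_lit 9, nat_lit 6, nat_lit 3), (nat_lit 18, nat_lit 12, nat_lit 1)], nat_lit 0, nat_lit 1, nat_lit 1⟩, ⟨[(nat_lit 18, nat_lit 6, nat_lit 2), (nat_lit 9, nat_lit 12, nat_lit 2)], [(nat_lit 9, nat_lit 6, nat_lit 3), (nat_lit 18, nat_lit 12, nat_lit 1)], nat_lit 0, nat_lit 1, nat_lit 1⟩),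
 (⟨[(nat_lit 9, nat_lit 12, nat_lit 2), (nat_lit 18, nat_lit 6, nat_lit 3)], [(nat_lit 9, nat_lit 6, nat_lit 3), (nat_lit 18, nat_lit 12, nat_lit 2)], nat_lit 0, nat_lit 1, nat_lit 1⟩, ⟨[(nat_lit 18, nat_lit 6, nat_lit 2), (nat_lit 9, nat_lit 12, nat_lit 3)], [(nat_lit 9, nat_lit 6, nat_lit 3), (nat_lit 18, nat_lit 12, nat_lit 2)], nat_lit 0, nat_lit 1, nat_lit 1⟩),
 (⟨[(nat_lit 9, nat_lit 12, nat_lit 3), (nat_lit 18, nat_lit 6, nat_lit 3)], [(nat_lit 9, nat_lit 6, nat_lit 3), (nat_lit 18, nat_lit 12, nat_lit 3)], nat_lit 0, nat_lit 1, nat_lit 1⟩, ⟨[(nat_lit 18, nat_lit 6, nat_lit 3), (nat_lit 9, nat_lit 12, nat_lit 3)], [(nat_lit 9, nat_lit 6, nat_lit 3), (nat_lit 18, nat_lit 12, nat_lit 3)], nat_lit 0, nat_lit 1, nat_lit 1⟩),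
 (⟨[(nat_lit 18, nat_lit 6, nat_lit 2)], [(nat_lit 9, nat_lit 6, nat_lit 2), (nat_lit 9, nat_lit 12, nat_lit 1), (nat_lit 18, nat_lit 12, nat_lit 1)], nat_lit 0, nat_lit 1, nat_lit 1⟩, ⟨[(nat_lit 9, nat_lit 12, nat_lit 2)], [(nat_lit 9, nat_lit 6, nat_lit 2), (nat_lit 18, nat_lit 6, nat_lit 1), (nat_lit 18, nat_lit 12, nat_lit 1)], nat_lit 0, nat_lit 1, nat_lit 1⟩),
 (⟨[], [(nat_lit 9, nat_lit 6, nat_lit 2), (nat_lit 18, nat_lit 12, nat_lit 2)], nat_lit 0, nat_lit 1, nat_lit 1⟩, ⟨[], [(nat_lit 9, nat_lit 6, nat_lit 2), (nat_lit 18, nat_lit 12, nat_lit 2)], nat_lit 0, nat_lit 1, nat_lit 1⟩),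
 (⟨[(nat_lit 18, nat_lit 12, nat_lit 2)], [(nat_lit 9, nat_lit 6, nat_lit 2)], nat_lit 0, nat_lit 1, nat_lit 1⟩, ⟨[(nat_lit 18, nat_lit 12, nat_lit 2)], [(nat_lit 9, nat_lit 6, nat_lit 2)], nat_lit 0, nat_lit 1, nat_lit 1⟩),
 (⟨[(nat_lit 18, nat_lit 6, nat_lit 1)], [(nat_lit 9, nat_lit 6, nat_lit 2), (nat_lit 18, nat_lit 12, nat_lit 2)], nat_lit 1, nat_lit 1, nat_lit 1⟩, ⟨[(nat_lit 9, nat_lit 12, nat_lit 1)], [(nat_lit 9, nat_lit 6, nat_lit 2), (nat_lit 18, nat_lit 12, nat_lit 2)], nat_lit 1, nat_lit 1, nat_lit 1⟩),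
 (⟨[(nat_lit 18, nat_lit 6, nat_lit 2)], [(nat_lit 9, nat_lit 6, nat_lit 2), (nat_lit 18, nat_lit 12, nat_lit 2)], nat_lit 0, nat_lit 1, nat_lit 1⟩, ⟨[(nat_lit 9, nat_lit 12, nat_lit 2)], [(nat_lit 9, nat_lit 6, nat_lit 2), (nat_lit 18, nat_lit 12, nat_lit 2)], nat_lit 0, nat_lit 1, nat_lit 1⟩),
 (⟨[(nat_lit 9, nat_lit 12, nat_lit 1), (nat_lit 18, nat_lit 6, nat_lit 1)], [(nat_lit 9, nat_lit 6, nat_lit 2), (nat_lit 18, nat_lit 12, nat_lit 2)], nat_lit 0, nat_lit 1, nat_lit 1⟩, ⟨[(nat_lit 18, nat_lit 6, nat_lit 1), (nat_lit 9, nat_lit 12, nat_lit 1)], [(nat_lit 9, nat_lit 6, nat_lit 2), (nat_lit 18, nat_lit 12, nat_lit 2)], nat_lit 0, nat_lit 1, nat_lit 1⟩),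
 (⟨[(nat_lit 9, nat_lit 12, nat_lit 1), (nat_lit 18, nat_lit 6, nat_lit 1), (nat_lit 18, nat_lit 12, nat_lit 1)], [(nat_lit 9, nat_lit 6, nat_lit 2)], nat_lit 1, nat_lit 1, nat_lit 1⟩, ⟨[(nat_lit 18, nat_lit 6, nat_lit 1), (nat_lit 9, nat_lit 12, nat_lit 1), (nat_lit 18, nat_lit 12, nat_lit 1)], [(nat_lit 9, nat_lit 6, nat_lit 2)], nat_lit 1, nat_lit 1, nat_lit 1⟩),
 (⟨[(nat_lit 9, nat_lit 12, nat_lit 1), (nat_lit 18, nat_lit 6, nat_lit 2)], [(nat_lit 9, nat_lit 6, nat_lit 2), (nat_lit 18, nat_lit 12, nat_lit 3)], nat_lit 0, nat_lit 1, nat_lit 1⟩, ⟨[(nat_lit 18, nat_lit 6, nat_lit 1), (nat_lit 9, nat_lit 12, nat_lit 2)], [(nat_lit 9, nat_lit 6, nat_lit 2), (nat_lit 18, nat_lit 12, nat_lit 3)], nat_lit 0, nat_lit 1, nat_lit 1⟩),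
 (⟨[(nat_lit 9, nat_lit 12, nat_lit 1), (nat_lit 18, nat_lit 6, nat_lit 2)], [(nat_lit 9, nat_lit 6, nat_lit 2), (nat_lit 18, nat_lit 12, nat_lit 2)], nat_lit 1, nat_lit 1, nat_lit 1⟩, ⟨[(nat_lit 18, nat_lit 6, nat_lit 1), (nat_lit 9, nat_lit 12, nat_lit 2)], [(nat_lit 9, nat_lit 6, nat_lit 2), (nat_lit 18, nat_lit 12, nat_lit 2)], nat_lit 1, nat_lit 1, nat_lit 1⟩),
 (⟨[(nat_lit 9, nat_lit 12, nat_lit 1), (nat_lit 18, nat_lit 6, nat_lit 2), (nat_lit 18, nat_lit 12, nat_lit 1)], [(nat_lit 9, nat_lit 6, nat_lit 2)], nat_lit 0, nat_lit 1, nat_lit 1⟩, ⟨[(nat_lit 18, nat_lit 6, nat_lit 1), (nat_lit 9, nat_lit 12, nat_lit 2), (nat_lit 18, nat_lit 12, nat_lit 1)], [(nat_lit 9, nat_lit 6, nat_lit 2)], nat_lit 0, nat_lit 1, nat_lit 1⟩),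
 (⟨[(nat_lit 9, nat_lit 12, nat_lit 1), (nat_lit 18, nat_lit 6, nat_lit 3)], [(nat_lit 9, nat_lit 6, nat_lit 2), (nat_lit 18, nat_lit 12, nat_lit 2)], nat_lit 0, nat_lit 1, nat_lit 1⟩, ⟨[(nat_lit 18, nat_lit 6, nat_lit 1), (nat_lit 9, nat_lit 12, nat_lit 3)], [(nat_lit 9, nat_lit 6, nat_lit 2), (nat_lit 18, nat_lit 12, nat_lit 2)], nat_lit 0, nat_lit 1, nat_lit 1⟩),
 (⟨[(nat_lit 9, nat_lit 12, nat_lit 2), (nat_lit 18, nat_lit 6, nat_lit 2)], [(nat_lit 9, nat_lit 6, nat_lit 2), (nat_lit 18, nat_lit 12, nat_lit 3)], nat_lit 1, nat_lit 1, nat_lit 1⟩, ⟨[(nat_lit 18, nat_lit 6, nat_lit 2), (nat_lit 9, nat_lit 12, nat_lit 2)], [(nat_lit 9, nat_lit 6, nat_lit 2), (nat_lit 18, nat_lit 12, nat_lit 3)], nat_lit 1, nat_lit 1, nat_lit 1⟩),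
 (⟨[(nat_lit 9, nat_lit 12, nat_lit 2), (nat_lit 18, nat_lit 6, nat_lit 2)], [(nat_lit 9, nat_lit 6, nat_lit 2), (nat_lit 18, nat_lit 12, nat_lit 2)], nat_lit 0, nat_lit 1, nat_lit 1⟩, ⟨[(nat_lit 18, nat_lit 6, nat_lit 2), (nat_lit 9, nat_lit 12, nat_lit 2)], [(nat_lit 9, nat_lit 6, nat_lit 2), (nat_lit 18, nat_lit 12, nat_lit 2)], nat_lit 0, nat_lit 1, nat_lit 1⟩),
 (⟨[(nat_lit 9, nat_lit 12, nat_lit 2), (nat_lit 18, nat_lit 6, nat_lit 2)], [(nat_lit 9, nat_lit 6, nat_lit 2), (nat_lit 18, nat_lit 12, nat_lit 1)], nat_lit 1, nat_lit 1, nat_lit 1⟩, ⟨[(nat_lit 18, nat_lit 6, nat_lit 2), (nat_lit 9, nat_lit 12, nat_lit 2)], [(nat_lit 9, nat_lit 6, nat_lit 2), (nat_lit 18, nat_lit 12, nat_lit 1)], nat_lit 1, nat_lit 1, nat_lit 1⟩),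
 (⟨[(nat_lit 9, nat_lit 12, nat_lit 2), (nat_lit 18, nat_lit 6, nat_lit 2)], [(nat_lit 9, nat_lit 6, nat_lit 2)], nat_lit 0, nat_lit 1, nat_lit 1⟩, ⟨[(nat_lit 18, nat_lit 6, nat_lit 2), (nat_lit 9, nat_lit 12, nat_lit 2)], [(nat_lit 9, nat_lit 6, nat_lit 2)], nat_lit 0, nat_lit 1, nat_lit 1⟩),
 (⟨[(nat_lit 9, nat_lit 12, nat_lit 2), (nat_lit 18, nat_lit 6, nat_lit 3)], [(nat_lit 9, nat_lit 6, nat_lit 2), (nat_lit 18, nat_lit 12, nat_lit 3)], nat_lit 0, nat_lit 1, nat_lit 1⟩, ⟨[(nat_lit 18, nat_lit 6, nat_lit 2), (nat_lit 9, nat_lit 12, nat_lit 3)], [(nat_lit 9, nat_lit 6, nat_lit 2), (nat_lit 18, nat_lit 12, nat_lit 3)], nat_lit 0, nat_lit 1, nat_lit 1⟩),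
 (⟨[(nat_lit 9, nat_lit 12, nat_lit 2), (nat_lit 18, nat_lit 6, nat_lit 3)], [(nat_lit 9, nat_lit 6, nat_lit 2), (nat_lit 18, nat_lit 12, nat_lit 2)], nat_lit 1, nat_lit 1, nat_lit 1⟩, ⟨[(nat_lit 18, nat_lit 6, nat_lit 2), (nat_lit 9, nat_lit 12, nat_lit 3)], [(nat_lit 9, nat_lit 6, nat_lit 2), (nat_lit 18, nat_lit 12, nat_lit 2)], nat_lit 1, nat_lit 1, nat_lit 1⟩),
 (⟨[(nat_lit 9, nat_lit 12, nat_lit 2), (nat_lit 18, nat_lit 6, nat_lit 3)], [(nat_lit 9, nat_lit 6, nat_lit 2), (nat_lit 18, nat_lit 12, nat_lit 1)], nat_lit 0, nat_lit 1, nat_lit 1⟩, ⟨[(nat_lit 18, nat_lit 6, nat_lit 2), (nat_lit 9, nat_lit 12, nat_lit 3)], [(nat_lit 9, nat_lit 6, nat_lit 2), (nat_lit 18, nat_lit 12, nat_lit 1)], nat_lit 0, nat_lit 1, nat_lit 1⟩),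
 (⟨[(nat_lit 18, nat_lit 12, nat_lit 2)], [(nat_lit 9, nat_lit 6, nat_lit 1), (nat_lit 9, nat_lit 12, nat_lit 2), (nat_lit 18, nat_lit 6, nat_lit 1)], nat_lit 0, nat_lit 1, nat_lit 1⟩, ⟨[(nat_lit 18, nat_lit 12, nat_lit 2)], [(nat_lit 9, nat_lit 6, nat_lit 1), (nat_lit 18, nat_lit 6, nat_lit 2), (nat_lit 9, nat_lit 12, nat_lit 1)], nat_lit 0, nat_lit 1, nat_lit 1⟩),
 (⟨[(nat_lit 18, nat_lit 12, nat_lit 2)], [(nat_lit 9, nat_lit 6, nat_lit 1), (nat_lit 9, nat_lit 12, nat_lit 2)], nat_lit 1, nat_lit 1, nat_lit 1⟩, ⟨[(nat_lit 18, nat_lit 12, nat_lit 2)], [(nat_lit 9, nat_lit 6, nat_lit 1), (nat_lit 18, nat_lit 6, nat_lit 2)], nat_lit 1, nat_lit 1, nat_lit 1⟩),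
 (⟨[(nat_lit 18, nat_lit 6, nat_lit 1), (nat_lit 18, nat_lit 12, nat_lit 1)], [(nat_lit 9, nat_lit 6, nat_lit 1), (nat_lit 9, nat_lit 12, nat_lit 2)], nat_lit 1, nat_lit 1, nat_lit 1⟩, ⟨[(nat_lit 9, nat_lit 12, nat_lit 1), (nat_lit 18, nat_lit 12, nat_lit 1)], [(nat_lit 9, nat_lit 6, nat_lit 1), (nat_lit 18, nat_lit 6, nat_lit 2)], nat_lit 1, nat_lit 1, nat_lit 1⟩),
 (⟨[(nat_lit 18, nat_lit 6, nat_lit 1), (nat_lit 18, nat_lit 12, nat_lit 2)], [(nat_lit 9, nat_lit 6, nat_lit 1), (nat_lit 9, nat_lit 12, nat_lit 2)], nat_lit 0, nat_lit 1, nat_lit 1⟩, ⟨[(nat_lit 9, nat_lit 12, nat_lit 1), (nat_lit 18, nat_lit 12, nat_lit 2)], [(nat_lit 9, nat_lit 6, nat_lit 1), (nat_lit 18, nat_lit 6, nat_lit 2)], nat_lit 0, nat_lit 1, nat_lit 1⟩)]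

def fl1 : List (Fg × Fg) := [
 (⟨[], [(nat_lit 9, nat_lit 6, nat_lit 1), (nat_lit 9, nat_lit 12, nat_lit 1), (nat_lit 18, nat_lit 6, nat_lit 1), (nat_lit 18, nat_lit 12, nat_lit 1)], nat_lit 0, nat_lit 1, nat_lit 1⟩, ⟨[], [(nat_lit 9, nat_lit 6, nat_lit 1), (nat_lit 18, nat_lit 6, nat_lit 1), (nat_lit 9, nat_lit 12, nat_lit 1), (nat_lit 18, nat_lit 12, nat_lit 1)], nat_lit 0, nat_lit 1, nat_lit 1⟩),
 (⟨[(nat_lit 18, nat_lit 12, nat_lit 2)], [(nat_lit 9, nat_lit 6, nat_lit 1), (nat_lit 9, nat_lit 12, nat_lit 1), (nat_lit 18, nat_lit 6, nat_lit 1)], nat_lit 1, nat_lit 1, nat_lit 1⟩, ⟨[(nat_lit 18, nat_lit 12, nat_lit 2)], [(nat_lit 9, nat_lit 6, nat_lit 1), (nat_lit 18, nat_lit 6, nat_lit 1), (nat_lit 9, nat_lit 12, nat_lit 1)], nat_lit 1, nat_lit 1, nat_lit 1⟩),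
 (⟨[], [(nat_lit 9, nat_lit 6, nat_lit 1), (nat_lit 9, nat_lit 12, nat_lit 1), (nat_lit 18, nat_lit 12, nat_lit 2)], nat_lit 0, nat_lit 1, nat_lit 1⟩, ⟨[], [(nat_lit 9, nat_lit 6, nat_lit 1), (nat_lit 18, nat_lit 6, nat_lit 1), (nat_lit 18, nat_lit 12, nat_lit 2)], nat_lit 0, nat_lit 1, nat_lit 1⟩),
 (⟨[(nat_lit 18, nat_lit 12, nat_lit 2)], [(nat_lit 9, nat_lit 6, nat_lit 1), (nat_lit 9, nat_lit 12, nat_lit 1)], nat_lit 0, nat_lit 1, nat_lit 1⟩, ⟨[(nat_lit 18, nat_lit 12, nat_lit 2)], [(nat_lit 9, nat_lit 6, nat_lit 1), (nat_lit 18, nat_lit 6, nat_lit 1)], nat_lit 0, nat_lit 1, nat_lit 1⟩),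
 (⟨[(nat_lit 18, nat_lit 6, nat_lit 1)], [(nat_lit 9, nat_lit 6, nat_lit 1), (nat_lit 9, nat_lit 12, nat_lit 1), (nat_lit 18, nat_lit 12, nat_lit 2)], nat_lit 1, nat_lit 1, nat_lit 1⟩, ⟨[(nat_lit 9, nat_lit 12, nat_lit 1)], [(nat_lit 9, nat_lit 6, nat_lit 1), (nat_lit 18, nat_lit 6, nat_lit 1), (nat_lit 18, nat_lit 12, nat_lit 2)], nat_lit 1, nat_lit 1, nat_lit 1⟩),
 (⟨[(nat_lit 18, nat_lit 6, nat_lit 1), (nat_lit 18, nat_lit 12, nat_lit 2)], [(nat_lit 9, nat_lit 6, nat_lit 1), (nat_lit 9, nat_lit 12, nat_lit 1)], nat_lit 1, nat_lit 1, nat_lit 1⟩, ⟨[(nat_lit 9, nat_lit 12, nat_lit 1), (nat_lit 18, nat_lit 12, nat_lit 2)], [(nat_lit 9, nat_lit 6, nat_lit 1), (nat_lit 18, nat_lit 6, nat_lit 1)], nat_lit 1, nat_lit 1, nat_lit 1⟩),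
 (⟨[(nat_lit 18, nat_lit 6, nat_lit 2)], [(nat_lit 9, nat_lit 6, nat_lit 1), (nat_lit 9, nat_lit 12, nat_lit 1), (nat_lit 18, nat_lit 12, nat_lit 2)], nat_lit 0, nat_lit 1, nat_lit 1⟩, ⟨[(nat_lit 9, nat_lit 12, nat_lit 2)], [(nat_lit 9, nat_lit 6, nat_lit 1), (nat_lit 18, nat_lit 6, nat_lit 1), (nat_lit 18, nat_lit 12, nat_lit 2)], nat_lit 0, nat_lit 1, nat_lit 1⟩),
 (⟨[(nat_lit 18, nat_lit 6, nat_lit 2)], [(nat_lit 9, nat_lit 6, nat_lit 1), (nat_lit 9, nat_lit 12, nat_lit 1), (nat_lit 18, nat_lit 12, nat_lit 1)], nat_lit 1, nat_lit 1, nat_lit 1⟩, ⟨[(nat_lit 9, nat_lit 12, nat_lit 2)], [(nat_lit 9, nat_lit 6, nat_lit 1), (nat_lit 18, nat_lit 6, nat_lit 1), (nat_lit 18, nat_lit 12, nat_lit 1)], nat_lit 1, nat_lit 1, nat_lit 1⟩),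
 (⟨[], [(nat_lit 9, nat_lit 6, nat_lit 1), (nat_lit 18, nat_lit 12, nat_lit 3)], nat_lit 0, nat_lit 1, nat_lit 1⟩, ⟨[], [(nat_lit 9, nat_lit 6, nat_lit 1), (nat_lit 18, nat_lit 12, nat_lit 3)], nat_lit 0, nat_lit 1, nat_lit 1⟩),
 (⟨[], [(nat_lit 9, nat_lit 6, nat_lit 1), (nat_lit 18, nat_lit 12, nat_lit 2)], nat_lit 1, nat_lit 1, nat_lit 1⟩, ⟨[], [(nat_lit 9, nat_lit 6, nat_lit 1), (nat_lit 18, nat_lit 12, nat_lit 2)], nat_lit 1, nat_lit 1, nat_lit 1⟩),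
 (⟨[(nat_lit 18, nat_lit 12, nat_lit 2)], [(nat_lit 9, nat_lit 6, nat_lit 1)], nat_lit 1, nat_lit 1, nat_lit 1⟩, ⟨[(nat_lit 18, nat_lit 12, nat_lit 2)], [(nat_lit 9, nat_lit 6, nat_lit 1)], nat_lit 1, nat_lit 1, nat_lit 1⟩),
 (⟨[(nat_lit 18, nat_lit 12, nat_lit 3)], [(nat_lit 9, nat_lit 6, nat_lit 1)], nat_lit 0, nat_lit 1, nat_lit 1⟩, ⟨[(nat_lit 18, nat_lit 12, nat_lit 3)], [(nat_lit 9, nat_lit 6, nat_lit 1)], nat_lit 0, nat_lit 1, nat_lit 1⟩),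
 (⟨[(nat_lit 18, nat_lit 6, nat_lit 1)], [(nat_lit 9, nat_lit 6, nat_lit 1), (nat_lit 18, nat_lit 12, nat_lit 3)], nat_lit 1, nat_lit 1, nat_lit 1⟩, ⟨[(nat_lit 9, nat_lit 12, nat_lit 1)], [(nat_lit 9, nat_lit 6, nat_lit 1), (nat_lit 18, nat_lit 12, nat_lit 3)], nat_lit 1, nat_lit 1, nat_lit 1⟩),
 (⟨[(nat_lit 18, nat_lit 6, nat_lit 1)], [(nat_lit 9, nat_lit 6, nat_lit 1), (nat_lit 18, nat_lit 12, nat_lit 2)], nat_lit 0, nat_lit 1, nat_lit 1⟩, ⟨[(nat_lit 9, nat_lit 12, nat_lit 1)], [(nat_lit 9, nat_lit 6, nat_lit 1), (nat_lit 18, nat_lit 12, nat_lit 2)], nat_lit 0, nat_lit 1, nat_lit 1⟩),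
 (⟨[(nat_lit 18, nat_lit 6, nat_lit 1), (nat_lit 18, nat_lit 12, nat_lit 2)], [(nat_lit 9, nat_lit 6, nat_lit 1)], nat_lit 0, nat_lit 1, nat_lit 1⟩, ⟨[(nat_lit 9, nat_lit 12, nat_lit 1), (nat_lit 18, nat_lit 12, nat_lit 2)], [(nat_lit 9, nat_lit 6, nat_lit 1)], nat_lit 0, nat_lit 1, nat_lit 1⟩),
 (⟨[(nat_lit 18, nat_lit 6, nat_lit 2)], [(nat_lit 9, nat_lit 6, nat_lit 1), (nat_lit 18, nat_lit 12, nat_lit 3)], nat_lit 0, nat_lit 1, nat_lit 1⟩, ⟨[(nat_lit 9, nat_lit 12, nat_lit 2)], [(nat_lit 9, nat_lit 6, nat_lit 1), (nat_lit 18, nat_lit 12, nat_lit 3)], nat_lit 0, nat_lit 1, nat_lit 1⟩),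
 (⟨[(nat_lit 18, nat_lit 6, nat_lit 2)], [(nat_lit 9, nat_lit 6, nat_lit 1), (nat_lit 18, nat_lit 12, nat_lit 2)], nat_lit 1, nat_lit 1, nat_lit 1⟩, ⟨[(nat_lit 9, nat_lit 12, nat_lit 2)], [(nat_lit 9, nat_lit 6, nat_lit 1), (nat_lit 18, nat_lit 12, nat_lit 2)], nat_lit 1, nat_lit 1, nat_lit 1⟩),
 (⟨[(nat_lit 18, nat_lit 6, nat_lit 3)], [(nat_lit 9, nat_lit 6, nat_lit 1), (nat_lit 18, nat_lit 12, nat_lit 2)], nat_lit 0, nat_lit 1, nat_lit 1⟩, ⟨[(nat_lit 9, nat_lit 12, nat_lit 3)], [(nat_lit 9, nat_lit 6, nat_lit 1), (nat_lit 18, nat_lit 12, nat_lit 2)], nat_lit 0, nat_lit 1, nat_lit 1⟩),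
 (⟨[(nat_lit 9, nat_lit 12, nat_lit 1), (nat_lit 18, nat_lit 6, nat_lit 1)], [(nat_lit 9, nat_lit 6, nat_lit 1), (nat_lit 18, nat_lit 12, nat_lit 3)], nat_lit 0, nat_lit 1, nat_lit 1⟩, ⟨[(nat_lit 18, nat_lit 6, nat_lit 1), (nat_lit 9, nat_lit 12, nat_lit 1)], [(nat_lit 9, nat_lit 6, nat_lit 1), (nat_lit 18, nat_lit 12, nat_lit 3)], nat_lit 0, nat_lit 1, nat_lit 1⟩),
 (⟨[(nat_lit 9, nat_lit 12, nat_lit 1), (nat_lit 18, nat_lit 6, nat_lit 1)], [(nat_lit 9, nat_lit 6, nat_lit 1), (nat_lit 18, nat_lit 12, nat_lit 2)], nat_lit 1, nat_lit 1, nat_lit 1⟩, ⟨[(nat_lit 18, nat_lit 6, nat_lit 1), (nat_lit 9, nat_lit 12, nat_lit 1)], [(nat_lit 9, nat_lit 6, nat_lit 1), (nat_lit 18, nat_lit 12, nat_lit 2)], nat_lit 1, nat_lit 1, nat_lit 1⟩),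
 (⟨[(nat_lit 9, nat_lit 12, nat_lit 1), (nat_lit 18, nat_lit 6, nat_lit 1), (nat_lit 18, nat_lit 12, nat_lit 1)], [(nat_lit 9, nat_lit 6, nat_lit 1)], nat_lit 0, nat_lit 1, nat_lit 1⟩, ⟨[(nat_lit 18, nat_lit 6, nat_lit 1), (nat_lit 9, nat_lit 12, nat_lit 1), (nat_lit 18, nat_lit 12, nat_lit 1)], [(nat_lit 9, nat_lit 6, nat_lit 1)], nat_lit 0, nat_lit 1, nat_lit 1⟩),
 (⟨[(nat_lit 9, nat_lit 12, nat_lit 1), (nat_lit 18, nat_lit 6, nat_lit 1), (nat_lit 18, nat_lit 12, nat_lit 2)], [(nat_lit 9, nat_lit 6, nat_lit 1)], nat_lit 1, nat_lit 1, nat_lit 1⟩, ⟨[(nat_lit 18, nat_lit 6, nat_lit 1), (nat_lit 9, nat_lit 12, nat_lit 1), (nat_lit 18, nat_lit 12, nat_lit 2)], [(nat_lit 9, nat_lit 6, nat_lit 1)], nat_lit 1, nat_lit 1, nat_lit 1⟩),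
 (⟨[(nat_lit 9, nat_lit 12, nat_lit 1), (nat_lit 18, nat_lit 6, nat_lit 2)], [(nat_lit 9, nat_lit 6, nat_lit 1), (nat_lit 18, nat_lit 12, nat_lit 3)], nat_lit 1, nat_lit 1, nat_lit 1⟩, ⟨[(nat_lit 18, nat_lit 6, nat_lit 1), (nat_lit 9, nat_lit 12, nat_lit 2)], [(nat_lit 9, nat_lit 6, nat_lit 1), (nat_lit 18, nat_lit 12, nat_lit 3)], nat_lit 1, nat_lit 1, nat_lit 1⟩),
 (⟨[(nat_lit 9, nat_lit 12, nat_lit 1), (nat_lit 18, nat_lit 6, nat_lit 2)], [(nat_lit 9, nat_lit 6, nat_lit 1), (nat_lit 18, nat_lit 12, nat_lit 2)], nat_lit 0, nat_lit 1, nat_lit 1⟩, ⟨[(nat_lit 18, nat_lit 6, nat_lit 1), (nat_lit 9, nat_lit 12, nat_lit 2)], [(nat_lit 9, nat_lit 6, nat_lit 1), (nat_lit 18, nat_lit 12, nat_lit 2)], nat_lit 0, nat_lit 1, nat_lit 1⟩),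
 (⟨[(nat_lit 9, nat_lit 12, nat_lit 1), (nat_lit 18, nat_lit 6, nat_lit 2), (nat_lit 18, nat_lit 12, nat_lit 1)], [(nat_lit 9, nat_lit 6, nat_lit 1)], nat_lit 1, nat_lit 1, nat_lit 1⟩, ⟨[(nat_lit 18, nat_lit 6, nat_lit 1), (nat_lit 9, nat_lit 12, nat_lit 2), (nat_lit 18, nat_lit 12, nat_lit 1)], [(nat_lit 9, nat_lit 6, nat_lit 1)], nat_lit 1, nat_lit 1, nat_lit 1⟩),
 (⟨[(nat_lit 9, nat_lit 12, nat_lit 1), (nat_lit 18, nat_lit 6, nat_lit 3)], [(nat_lit 9, nat_lit 6, nat_lit 1), (nat_lit 18, nat_lit 12, nat_lit 3)], nat_lit 0, nat_lit 1, nat_lit 1⟩, ⟨[(nat_lit 18, nat_lit 6, nat_lit 1), (nat_lit 9, nat_lit 12, nat_lit 3)], [(nat_lit 9, nat_lit 6, nat_lit 1), (nat_lit 18, nat_lit 12, nat_lit 3)], nat_lit 0, nat_lit 1, nat_lit 1⟩),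
 (⟨[(nat_lit 9, nat_lit 12, nat_lit 1), (nat_lit 18, nat_lit 6, nat_lit 3)], [(nat_lit 9, nat_lit 6, nat_lit 1), (nat_lit 18, nat_lit 12, nat_lit 2)], nat_lit 1, nat_lit 1, nat_lit 1⟩, ⟨[(nat_lit 18, nat_lit 6, nat_lit 1), (nat_lit 9, nat_lit 12, nat_lit 3)], [(nat_lit 9, nat_lit 6, nat_lit 1), (nat_lit 18, nat_lit 12, nat_lit 2)], nat_lit 1, nat_lit 1, nat_lit 1⟩),
 (⟨[(nat_lit 9, nat_lit 12, nat_lit 2), (nat_lit 18, nat_lit 6, nat_lit 2)], [(nat_lit 9, nat_lit 6, nat_lit 1), (nat_lit 18, nat_lit 12, nat_lit 3)], nat_lit 0, nat_lit 1, nat_lit 1⟩, ⟨[(nat_lit 18, nat_lit 6, nat_lit 2), (nat_lit 9, nat_lit 12, nat_lit 2)], [(nat_lit 9, nat_lit 6, nat_lit 1), (nat_lit 18, nat_lit 12, nat_lit 3)], nat_lit 0, nat_lit 1, nat_lit 1⟩),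
 (⟨[(nat_lit 9, nat_lit 12, nat_lit 2), (nat_lit 18, nat_lit 6, nat_lit 2)], [(nat_lit 9, nat_lit 6, nat_lit 1), (nat_lit 18, nat_lit 12, nat_lit 2)], nat_lit 1, nat_lit 1, nat_lit 1⟩, ⟨[(nat_lit 18, nat_lit 6, nat_lit 2), (nat_lit 9, nat_lit 12, nat_lit 2)], [(nat_lit 9, nat_lit 6, nat_lit 1), (nat_lit 18, nat_lit 12, nat_lit 2)], nat_lit 1, nat_lit 1, nat_lit 1⟩),
 (⟨[(nat_lit 9, nat_lit 12, nat_lit 2), (nat_lit 18, nat_lit 6, nat_lit 2)], [(nat_lit 9, nat_lit 6, nat_lit 1), (nat_lit 18, nat_lit 12, nat_lit 1)], nat_lit 0, nat_lit 1, nat_lit 1⟩, ⟨[(nat_lit 18, nat_lit 6, nat_lit 2), (nat_lit 9, nat_lit 12, nat_lit 2)], [(nat_lit 9, nat_lit 6, nat_lit 1), (nat_lit 18, nat_lit 12, nat_lit 1)], nat_lit 0, nat_lit 1, nat_lit 1⟩),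
 (⟨[(nat_lit 9, nat_lit 12, nat_lit 2), (nat_lit 18, nat_lit 6, nat_lit 2)], [(nat_lit 9, nat_lit 6, nat_lit 1)], nat_lit 1, nat_lit 1, nat_lit 1⟩, ⟨[(nat_lit 18, nat_lit 6, nat_lit 2), (nat_lit 9, nat_lit 12, nat_lit 2)], [(nat_lit 9, nat_lit 6, nat_lit 1)], nat_lit 1, nat_lit 1, nat_lit 1⟩),
 (⟨[(nat_lit 9, nat_lit 12, nat_lit 2), (nat_lit 18, nat_lit 6, nat_lit 3)], [(nat_lit 9, nat_lit 6, nat_lit 1), (nat_lit 18, nat_lit 12, nat_lit 2)], nat_lit 0, nat_lit 1, nat_lit 1⟩, ⟨[(nat_lit 18, nat_lit 6, nat_lit 2), (nat_lit 9, nat_lit 12, nat_lit 3)], [(nat_lit 9, nat_lit 6, nat_lit 1), (nat_lit 18, nat_lit 12, nat_lit 2)], nat_lit 0, nat_lit 1, nat_lit 1⟩),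
 (⟨[(nat_lit 18, nat_lit 12, nat_lit 2)], [(nat_lit 9, nat_lit 12, nat_lit 3), (nat_lit 18, nat_lit 6, nat_lit 1)], nat_lit 0, nat_lit 1, nat_lit 1⟩, ⟨[(nat_lit 18, nat_lit 12, nat_lit 2)], [(nat_lit 18, nat_lit 6, nat_lit 3), (nat_lit 9, nat_lit 12, nat_lit 1)], nat_lit 0, nat_lit 1, nat_lit 1⟩),
 (⟨[(nat_lit 18, nat_lit 12, nat_lit 2)], [(nat_lit 9, nat_lit 12, nat_lit 3)], nat_lit 1, nat_lit 1, nat_lit 1⟩, ⟨[(nat_lit 18, nat_lit 12, nat_lit 2)], [(nat_lit 18, nat_lit 6, nat_lit 3)], nat_lit 1, nat_lit 1, nat_lit 1⟩),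
 (⟨[(nat_lit 18, nat_lit 12, nat_lit 3)], [(nat_lit 9, nat_lit 12, nat_lit 3)], nat_lit 0, nat_lit 1, nat_lit 1⟩, ⟨[(nat_lit 18, nat_lit 12, nat_lit 3)], [(nat_lit 18, nat_lit 6, nat_lit 3)], nat_lit 0, nat_lit 1, nat_lit 1⟩),
 (⟨[], [(nat_lit 9, nat_lit 12, nat_lit 2), (nat_lit 18, nat_lit 6, nat_lit 2)], nat_lit 0, nat_lit 1, nat_lit 1⟩, ⟨[], [(nat_lit 18, nat_lit 6, nat_lit 2), (nat_lit 9, nat_lit 12, nat_lit 2)], nat_lit 0, nat_lit 1, nat_lit 1⟩),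
 (⟨[(nat_lit 18, nat_lit 12, nat_lit 1)], [(nat_lit 9, nat_lit 12, nat_lit 2), (nat_lit 18, nat_lit 6, nat_lit 2)], nat_lit 1, nat_lit 1, nat_lit 1⟩, ⟨[(nat_lit 18, nat_lit 12, nat_lit 1)], [(nat_lit 18, nat_lit 6, nat_lit 2), (nat_lit 9, nat_lit 12, nat_lit 2)], nat_lit 1, nat_lit 1, nat_lit 1⟩),
 (⟨[(nat_lit 18, nat_lit 12, nat_lit 2)], [(nat_lit 9, nat_lit 12, nat_lit 2), (nat_lit 18, nat_lit 6, nat_lit 2)], nat_lit 0, nat_lit 1, nat_lit 1⟩, ⟨[(nat_lit 18, nat_lit 12, nat_lit 2)], [(nat_lit 18, nat_lit 6, nat_lit 2), (nat_lit 9, nat_lit 12, nat_lit 2)], nat_lit 0, nat_lit 1, nat_lit 1⟩),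
 (⟨[], [(nat_lit 9, nat_lit 12, nat_lit 2), (nat_lit 18, nat_lit 6, nat_lit 1), (nat_lit 18, nat_lit 12, nat_lit 1)], nat_lit 0, nat_lit 1, nat_lit 1⟩, ⟨[], [(nat_lit 18, nat_lit 6, nat_lit 2), (nat_lit 9, nat_lit 12, nat_lit 1), (nat_lit 18, nat_lit 12, nat_lit 1)], nat_lit 0, nat_lit 1, nat_lit 1⟩),
 (⟨[(nat_lit 18, nat_lit 12, nat_lit 2)], [(nat_lit 9, nat_lit 12, nat_lit 2), (nat_lit 18, nat_lit 6, nat_lit 1)], nat_lit 1, nat_lit 1, nat_lit 1⟩, ⟨[(nat_lit 18, nat_lit 12, nat_lit 2)], [(nat_lit 18, nat_lit 6, nat_lit 2), (nat_lit 9, nat_lit 12, nat_lit 1)], nat_lit 1, nat_lit 1, nat_lit 1⟩),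
 (⟨[(nat_lit 18, nat_lit 12, nat_lit 3)], [(nat_lit 9, nat_lit 12, nat_lit 2), (nat_lit 18, nat_lit 6, nat_lit 1)], nat_lit 0, nat_lit 1, nat_lit 1⟩, ⟨[(nat_lit 18, nat_lit 12, nat_lit 3)], [(nat_lit 18, nat_lit 6, nat_lit 2), (nat_lit 9, nat_lit 12, nat_lit 1)], nat_lit 0, nat_lit 1, nat_lit 1⟩),
 (⟨[], [(nat_lit 9, nat_lit 12, nat_lit 2), (nat_lit 18, nat_lit 12, nat_lit 2)], nat_lit 0, nat_lit 1, nat_lit 1⟩, ⟨[], [(nat_lit 18, nat_lit 6, nat_lit 2), (nat_lit 18, nat_lit 12, nat_lit 2)], nat_lit 0, nat_lit 1, nat_lit 1⟩),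
 (⟨[(nat_lit 18, nat_lit 12, nat_lit 2)], [(nat_lit 9, nat_lit 12, nat_lit 2)], nat_lit 0, nat_lit 1, nat_lit 1⟩, ⟨[(nat_lit 18, nat_lit 12, nat_lit 2)], [(nat_lit 18, nat_lit 6, nat_lit 2)], nat_lit 0, nat_lit 1, nat_lit 1⟩),
 (⟨[(nat_lit 18, nat_lit 12, nat_lit 3)], [(nat_lit 9, nat_lit 12, nat_lit 2)], nat_lit 1, nat_lit 1, nat_lit 1⟩, ⟨[(nat_lit 18, nat_lit 12, nat_lit 3)], [(nat_lit 18, nat_lit 6, nat_lit 2)], nat_lit 1, nat_lit 1, nat_lit 1⟩),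
 (⟨[(nat_lit 18, nat_lit 6, nat_lit 1), (nat_lit 18, nat_lit 12, nat_lit 1)], [(nat_lit 9, nat_lit 12, nat_lit 2)], nat_lit 0, nat_lit 1, nat_lit 1⟩, ⟨[(nat_lit 9, nat_lit 12, nat_lit 1), (nat_lit 18, nat_lit 12, nat_lit 1)], [(nat_lit 18, nat_lit 6, nat_lit 2)], nat_lit 0, nat_lit 1, nat_lit 1⟩),
 (⟨[(nat_lit 18, nat_lit 6, nat_lit 1), (nat_lit 18, nat_lit 12, nat_lit 2)], [(nat_lit 9, nat_lit 12, nat_lit 2)], nat_lit 1, nat_lit 1, nat_lit 1⟩, ⟨[(nat_lit 9, nat_lit 12, nat_lit 1), (nat_lit 18, nat_lit 12, nat_lit 2)], [(nat_lit 18, nat_lit 6, nat_lit 2)], nat_lit 1, nat_lit 1, nat_lit 1⟩),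
 (⟨[(nat_lit 18, nat_lit 6, nat_lit 2)], [(nat_lit 9, nat_lit 12, nat_lit 2)], nat_lit 0, nat_lit 1, nat_lit 1⟩, ⟨[(nat_lit 9, nat_lit 12, nat_lit 2)], [(nat_lit 18, nat_lit 6, nat_lit 2)], nat_lit 0, nat_lit 1, nat_lit 1⟩),
 (⟨[], [(nat_lit 9, nat_lit 12, nat_lit 1), (nat_lit 18, nat_lit 6, nat_lit 1), (nat_lit 18, nat_lit 12, nat_lit 2)], nat_lit 0, nat_lit 1, nat_lit 1⟩, ⟨[], [(nat_lit 18, nat_lit 6, nat_lit 1), (nat_lit 9, nat_lit 12, nat_lit 1), (nat_lit 18, nat_lit 12, nat_lit 2)], nat_lit 0, nat_lit 1, nat_lit 1⟩),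
 (⟨[], [(nat_lit 9, nat_lit 12, nat_lit 1), (nat_lit 18, nat_lit 6, nat_lit 1), (nat_lit 18, nat_lit 12, nat_lit 1)], nat_lit 1, nat_lit 1, nat_lit 1⟩, ⟨[], [(nat_lit 18, nat_lit 6, nat_lit 1), (nat_lit 9, nat_lit 12, nat_lit 1), (nat_lit 18, nat_lit 12, nat_lit 1)], nat_lit 1, nat_lit 1, nat_lit 1⟩),
 (⟨[(nat_lit 18, nat_lit 12, nat_lit 2)], [(nat_lit 9, nat_lit 12, nat_lit 1), (nat_lit 18, nat_lit 6, nat_lit 1)], nat_lit 0, nat_lit 1, nat_lit 1⟩, ⟨[(nat_lit 18, nat_lit 12, nat_lit 2)], [(nat_lit 18, nat_lit 6, nat_lit 1), (nat_lit 9, nat_lit 12, nat_lit 1)], nat_lit 0, nat_lit 1, nat_lit 1⟩)]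

def fl2 : List (Fg × Fg) := [
 (⟨[(nat_lit 18, nat_lit 12, nat_lit 3)], [(nat_lit 9, nat_lit 12, nat_lit 1), (nat_lit 18, nat_lit 6, nat_lit 1)], nat_lit 1, nat_lit 1, nat_lit 1⟩, ⟨[(nat_lit 18, nat_lit 12, nat_lit 3)], [(nat_lit 18, nat_lit 6, nat_lit 1), (nat_lit 9, nat_lit 12, nat_lit 1)], nat_lit 1, nat_lit 1, nat_lit 1⟩),
 (⟨[], [(nat_lit 9, nat_lit 12, nat_lit 1), (nat_lit 18, nat_lit 12, nat_lit 3)], nat_lit 0, nat_lit 1, nat_lit 1⟩, ⟨[], [(nat_lit 18, nat_lit 6, nat_lit 1), (nat_lit 18, nat_lit 12, nat_lit 3)], nat_lit 0, nat_lit 1, nat_lit 1⟩),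
 (⟨[], [(nat_lit 9, nat_lit 12, nat_lit 1), (nat_lit 18, nat_lit 12, nat_lit 2)], nat_lit 1, nat_lit 1, nat_lit 1⟩, ⟨[], [(nat_lit 18, nat_lit 6, nat_lit 1), (nat_lit 18, nat_lit 12, nat_lit 2)], nat_lit 1, nat_lit 1, nat_lit 1⟩),
 (⟨[(nat_lit 18, nat_lit 12, nat_lit 2)], [(nat_lit 9, nat_lit 12, nat_lit 1)], nat_lit 1, nat_lit 1, nat_lit 1⟩, ⟨[(nat_lit 18, nat_lit 12, nat_lit 2)], [(nat_lit 18, nat_lit 6, nat_lit 1)], nat_lit 1, nat_lit 1, nat_lit 1⟩),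
 (⟨[(nat_lit 18, nat_lit 12, nat_lit 3)], [(nat_lit 9, nat_lit 12, nat_lit 1)], nat_lit 0, nat_lit 1, nat_lit 1⟩, ⟨[(nat_lit 18, nat_lit 12, nat_lit 3)], [(nat_lit 18, nat_lit 6, nat_lit 1)], nat_lit 0, nat_lit 1, nat_lit 1⟩),
 (⟨[(nat_lit 18, nat_lit 6, nat_lit 1)], [(nat_lit 9, nat_lit 12, nat_lit 1), (nat_lit 18, nat_lit 12, nat_lit 2)], nat_lit 0, nat_lit 1, nat_lit 1⟩, ⟨[(nat_lit 9, nat_lit 12, nat_lit 1)], [(nat_lit 18, nat_lit 6, nat_lit 1), (nat_lit 18, nat_lit 12, nat_lit 2)], nat_lit 0, nat_lit 1, nat_lit 1⟩),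
 (⟨[], [(nat_lit 18, nat_lit 12, nat_lit 4)], nat_lit 0, nat_lit 1, nat_lit 1⟩, ⟨[], [(nat_lit 18, nat_lit 12, nat_lit 4)], nat_lit 0, nat_lit 1, nat_lit 1⟩),
 (⟨[], [(nat_lit 18, nat_lit 12, nat_lit 3)], nat_lit 1, nat_lit 1, nat_lit 1⟩, ⟨[], [(nat_lit 18, nat_lit 12, nat_lit 3)], nat_lit 1, nat_lit 1, nat_lit 1⟩),
 (⟨[], [(nat_lit 18, nat_lit 12, nat_lit 2)], nat_lit 0, nat_lit 1, nat_lit 1⟩, ⟨[], [(nat_lit 18, nat_lit 12, nat_lit 2)], nat_lit 0, nat_lit 1, nat_lit 1⟩),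
 (⟨[(nat_lit 9, nat_lit 18, nat_lit 2), (nat_lit 18, nat_lit 12, nat_lit 2)], [(nat_lit 9, nat_lit 6, nat_lit 1), (nat_lit 9, nat_lit 12, nat_lit 2), (nat_lit 18, nat_lit 18, nat_lit 2)], nat_lit 1, nat_lit 1, nat_lit 2⟩, ⟨[(nat_lit 27, nat_lit 6, nat_lit 2), (nat_lit 18, nat_lit 12, nat_lit 2)], [(nat_lit 9, nat_lit 6, nat_lit 1), (nat_lit 18, nat_lit 6, nat_lit 2), (nat_lit 27, nat_lit 12, nat_lit 2)], nat_lit 1, nat_lit 2, nat_lit 1⟩),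
 (⟨[(nat_lit 9, nat_lit 18, nat_lit 2), (nat_lit 18, nat_lit 6, nat_lit 1), (nat_lit 18, nat_lit 12, nat_lit 1)], [(nat_lit 9, nat_lit 6, nat_lit 1), (nat_lit 9, nat_lit 12, nat_lit 2), (nat_lit 18, nat_lit 18, nat_lit 2)], nat_lit 1, nat_lit 1, nat_lit 2⟩, ⟨[(nat_lit 27, nat_lit 6, nat_lit 2), (nat_lit 9, nat_lit 12, nat_lit 1), (nat_lit 18, nat_lit 12, nat_lit 1)], [(nat_lit 9, nat_lit 6, nat_lit 1), (nat_lit 18, nat_lit 6, nat_lit 2), (nat_lit 27, nat_lit 12, nat_lit 2)], nat_lit 1, nat_lit 2, nat_lit 1⟩),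
 (⟨[(nat_lit 9, nat_lit 18, nat_lit 1), (nat_lit 18, nat_lit 12, nat_lit 2)], [(nat_lit 9, nat_lit 6, nat_lit 1), (nat_lit 9, nat_lit 12, nat_lit 1), (nat_lit 18, nat_lit 18, nat_lit 2)], nat_lit 1, nat_lit 1, nat_lit 2⟩, ⟨[(nat_lit 27, nat_lit 6, nat_lit 1), (nat_lit 18, nat_lit 12, nat_lit 2)], [(nat_lit 9, nat_lit 6, nat_lit 1), (nat_lit 18, nat_lit 6, nat_lit 1), (nat_lit 27, nat_lit 12, nat_lit 2)], nat_lit 1, nat_lit 2, nat_lit 1⟩),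
 (⟨[(nat_lit 9, nat_lit 18, nat_lit 2), (nat_lit 18, nat_lit 12, nat_lit 2)], [(nat_lit 9, nat_lit 6, nat_lit 1), (nat_lit 9, nat_lit 12, nat_lit 1), (nat_lit 18, nat_lit 18, nat_lit 2)], nat_lit 0, nat_lit 1, nat_lit 2⟩, ⟨[(nat_lit 27, nat_lit 6, nat_lit 2), (nat_lit 18, nat_lit 12, nat_lit 2)], [(nat_lit 9, nat_lit 6, nat_lit 1), (nat_lit 18, nat_lit 6, nat_lit 1), (nat_lit 27, nat_lit 12, nat_lit 2)], nat_lit 0, nat_lit 2, nat_lit 1⟩),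
 (⟨[(nat_lit 9, nat_lit 18, nat_lit 2), (nat_lit 18, nat_lit 12, nat_lit 2)], [(nat_lit 9, nat_lit 6, nat_lit 1), (nat_lit 9, nat_lit 12, nat_lit 1), (nat_lit 18, nat_lit 18, nat_lit 1)], nat_lit 1, nat_lit 1, nat_lit 2⟩, ⟨[(nat_lit 27, nat_lit 6, nat_lit 2), (nat_lit 18, nat_lit 12, nat_lit 2)], [(nat_lit 9, nat_lit 6, nat_lit 1), (nat_lit 18, nat_lit 6, nat_lit 1), (nat_lit 27, nat_lit 12, nat_lit 1)], nat_lit 1, nat_lit 2, nat_lit 1⟩),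
 (⟨[(nat_lit 9, nat_lit 18, nat_lit 2), (nat_lit 18, nat_lit 6, nat_lit 1)], [(nat_lit 9, nat_lit 6, nat_lit 1), (nat_lit 9, nat_lit 12, nat_lit 1), (nat_lit 18, nat_lit 12, nat_lit 1), (nat_lit 18, nat_lit 18, nat_lit 1)], nat_lit 1, nat_lit 1, nat_lit 2⟩, ⟨[(nat_lit 27, nat_lit 6, nat_lit 2), (nat_lit 9, nat_lit 12, nat_lit 1)], [(nat_lit 9, nat_lit 6, nat_lit 1), (nat_lit 18, nat_lit 6, nat_lit 1), (nat_lit 18, nat_lit 12, nat_lit 1), (nat_lit 27, nat_lit 12, nat_lit 1)], nat_lit 1, nat_lit 2, nat_lit 1⟩),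
 (⟨[(nat_lit 9, nat_lit 18, nat_lit 2), (nat_lit 18, nat_lit 6, nat_lit 1), (nat_lit 18, nat_lit 12, nat_lit 2)], [(nat_lit 9, nat_lit 6, nat_lit 1), (nat_lit 9, nat_lit 12, nat_lit 1), (nat_lit 18, nat_lit 18, nat_lit 2)], nat_lit 1, nat_lit 1, nat_lit 2⟩, ⟨[(nat_lit 27, nat_lit 6, nat_lit 2), (nat_lit 9, nat_lit 12, nat_lit 1), (nat_lit 18, nat_lit 12, nat_lit 2)], [(nat_lit 9, nat_lit 6, nat_lit 1), (nat_lit 18, nat_lit 6, nat_lit 1), (nat_lit 27, nat_lit 12, nat_lit 2)], nat_lit 1, nat_lit 2, nat_lit 1⟩),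
 (⟨[(nat_lit 18, nat_lit 18, nat_lit 2)], [(nat_lit 9, nat_lit 6, nat_lit 1), (nat_lit 18, nat_lit 12, nat_lit 2)], nat_lit 1, nat_lit 1, nat_lit 2⟩, ⟨[(nat_lit 27, nat_lit 12, nat_lit 2)], [(nat_lit 9, nat_lit 6, nat_lit 1), (nat_lit 18, nat_lit 12, nat_lit 2)], nat_lit 1, nat_lit 2, nat_lit 1⟩),
 (⟨[(nat_lit 9, nat_lit 18, nat_lit 1), (nat_lit 18, nat_lit 18, nat_lit 1)], [(nat_lit 9, nat_lit 6, nat_lit 1), (nat_lit 18, nat_lit 12, nat_lit 2)], nat_lit 1, nat_lit 1, nat_lit 2⟩, ⟨[(nat_lit 27, nat_lit 6, nat_lit 1), (nat_lit 27, nat_lit 12, nat_lit 1)], [(nat_lit 9, nat_lit 6, nat_lit 1), (nat_lit 18, nat_lit 12, nat_lit 2)], nat_lit 1, nat_lit 2, nat_lit 1⟩),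
 (⟨[(nat_lit 9, nat_lit 18, nat_lit 1), (nat_lit 18, nat_lit 12, nat_lit 2)], [(nat_lit 9, nat_lit 6, nat_lit 1), (nat_lit 18, nat_lit 18, nat_lit 2)], nat_lit 0, nat_lit 1, nat_lit 2⟩, ⟨[(nat_lit 27, nat_lit 6, nat_lit 1), (nat_lit 18, nat_lit 12, nat_lit 2)], [(nat_lit 9, nat_lit 6, nat_lit 1), (nat_lit 27, nat_lit 12, nat_lit 2)], nat_lit 0, nat_lit 2, nat_lit 1⟩),
 (⟨[(nat_lit 9, nat_lit 18, nat_lit 1), (nat_lit 18, nat_lit 6, nat_lit 1), (nat_lit 18, nat_lit 18, nat_lit 1)], [(nat_lit 9, nat_lit 6, nat_lit 1), (nat_lit 18, nat_lit 12, nat_lit 2)], nat_lit 0, nat_lit 1, nat_lit 2⟩, ⟨[(nat_lit 27, nat_lit 6, nat_lit 1), (nat_lit 9, nat_lit 12, nat_lit 1), (nat_lit 27, nat_lit 12, nat_lit 1)], [(nat_lit 9, nat_lit 6, nat_lit 1), (nat_lit 18, nat_lit 12, nat_lit 2)], nat_lit 0, nat_lit 2, nat_lit 1⟩),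
 (⟨[(nat_lit 9, nat_lit 18, nat_lit 1), (nat_lit 18, nat_lit 6, nat_lit 1), (nat_lit 18, nat_lit 12, nat_lit 2)], [(nat_lit 9, nat_lit 6, nat_lit 1), (nat_lit 18, nat_lit 18, nat_lit 2)], nat_lit 1, nat_lit 1, nat_lit 2⟩, ⟨[(nat_lit 27, nat_lit 6, nat_lit 1), (nat_lit 9, nat_lit 12, nat_lit 1), (nat_lit 18, nat_lit 12, nat_lit 2)], [(nat_lit 9, nat_lit 6, nat_lit 1), (nat_lit 27, nat_lit 12, nat_lit 2)], nat_lit 1, nat_lit 2, nat_lit 1⟩),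
 (⟨[(nat_lit 9, nat_lit 18, nat_lit 2), (nat_lit 18, nat_lit 12, nat_lit 2)], [(nat_lit 9, nat_lit 6, nat_lit 1), (nat_lit 18, nat_lit 18, nat_lit 2)], nat_lit 1, nat_lit 1, nat_lit 2⟩, ⟨[(nat_lit 27, nat_lit 6, nat_lit 2), (nat_lit 18, nat_lit 12, nat_lit 2)], [(nat_lit 9, nat_lit 6, nat_lit 1), (nat_lit 27, nat_lit 12, nat_lit 2)], nat_lit 1, nat_lit 2, nat_lit 1⟩),
 (⟨[(nat_lit 9, nat_lit 12, nat_lit 1), (nat_lit 9, nat_lit 18, nat_lit 1), (nat_lit 18, nat_lit 6, nat_lit 1), (nat_lit 18, nat_lit 18, nat_lit 1)], [(nat_lit 9, nat_lit 6, nat_lit 1), (nat_lit 18, nat_lit 12, nat_lit 2)], nat_lit 1, nat_lit 1, nat_lit 2⟩, ⟨[(nat_lit 18, nat_lit 6, nat_lit 1), (nat_lit 27, nat_lit 6, nat_lit 1), (nat_lit 9, nat_lit 12, nat_lit 1), (nat_lit 27, nat_lit 12, nat_lit 1)], [(nat_lit 9, nat_lit 6, nat_lit 1),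 (nat_lit 18, nat_lit 12, nat_lit 2)], nat_lit 1, nat_lit 2, nat_lit 1⟩),
 (⟨[(nat_lit 9, nat_lit 18, nat_lit 2), (nat_lit 18, nat_lit 12, nat_lit 2)], [(nat_lit 9, nat_lit 12, nat_lit 3), (nat_lit 18, nat_lit 18, nat_lit 2)], nat_lit 1, nat_lit 1, nat_lit 2⟩, ⟨[(nat_lit 27, nat_lit 6, nat_lit 2), (nat_lit 18, nat_lit 12, nat_lit 2)], [(nat_lit 18, nat_lit 6, nat_lit 3), (nat_lit 27, nat_lit 12, nat_lit 2)], nat_lit 1, nat_lit 2, nat_lit 1⟩),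
 (⟨[(nat_lit 18, nat_lit 12, nat_lit 1)], [(nat_lit 9, nat_lit 12, nat_lit 2), (nat_lit 18, nat_lit 18, nat_lit 2)], nat_lit 1, nat_lit 1, nat_lit 2⟩, ⟨[(nat_lit 18, nat_lit 12, nat_lit 1)], [(nat_lit 18, nat_lit 6, nat_lit 2), (nat_lit 27, nat_lit 12, nat_lit 2)], nat_lit 1, nat_lit 2, nat_lit 1⟩),
 (⟨[(nat_lit 18, nat_lit 12, nat_lit 2)], [(nat_lit 9, nat_lit 12, nat_lit 2), (nat_lit 18, nat_lit 18, nat_lit 2)], nat_lit 0, nat_lit 1, nat_lit 2⟩, ⟨[(nat_lit 18, nat_lit 12, nat_lit 2)], [(nat_lit 18, nat_lit 6, nat_lit 2), (nat_lit 27, nat_lit 12, nat_lit 2)], nat_lit 0, nat_lit 2, nat_lit 1⟩),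
 (⟨[(nat_lit 9, nat_lit 18, nat_lit 1)], [(nat_lit 9, nat_lit 12, nat_lit 2), (nat_lit 18, nat_lit 18, nat_lit 2)], nat_lit 1, nat_lit 1, nat_lit 2⟩, ⟨[(nat_lit 27, nat_lit 6, nat_lit 1)], [(nat_lit 18, nat_lit 6, nat_lit 2), (nat_lit 27, nat_lit 12, nat_lit 2)], nat_lit 1, nat_lit 2, nat_lit 1⟩),
 (⟨[(nat_lit 9, nat_lit 18, nat_lit 1), (nat_lit 18, nat_lit 12, nat_lit 1)], [(nat_lit 9, nat_lit 12, nat_lit 2), (nat_lit 18, nat_lit 18, nat_lit 2)], nat_lit 0, nat_lit 1, nat_lit 2⟩, ⟨[(nat_lit 27, nat_lit 6, nat_lit 1), (nat_lit 18, nat_lit 12, nat_lit 1)], [(nat_lit 18, nat_lit 6, nat_lit 2), (nat_lit 27, nat_lit 12, nat_lit 2)], nat_lit 0, nat_lit 2, nat_lit 1⟩),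
 (⟨[(nat_lit 9, nat_lit 18, nat_lit 1), (nat_lit 18, nat_lit 12, nat_lit 1), (nat_lit 18, nat_lit 18, nat_lit 1)], [(nat_lit 9, nat_lit 12, nat_lit 2)], nat_lit 1, nat_lit 1, nat_lit 2⟩, ⟨[(nat_lit 27, nat_lit 6, nat_lit 1), (nat_lit 18, nat_lit 12, nat_lit 1), (nat_lit 27, nat_lit 12, nat_lit 1)], [(nat_lit 18, nat_lit 6, nat_lit 2)], nat_lit 1, nat_lit 2, nat_lit 1⟩),
 (⟨[(nat_lit 9, nat_lit 18, nat_lit 1), (nat_lit 18, nat_lit 12, nat_lit 2)], [(nat_lit 9, nat_lit 12, nat_lit 2), (nat_lit 18, nat_lit 18, nat_lit 2)], nat_lit 1, nat_lit 1, nat_lit 2⟩, ⟨[(nat_lit 27, nat_lit 6, nat_lit 1), (nat_lit 18, nat_lit 12, nat_lit 2)], [(nat_lit 18, nat_lit 6, nat_lit 2), (nat_lit 27, nat_lit 12, nat_lit 2)], nat_lit 1, nat_lit 2, nat_lit 1⟩),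
 (⟨[(nat_lit 9, nat_lit 18, nat_lit 1), (nat_lit 18, nat_lit 6, nat_lit 1), (nat_lit 18, nat_lit 12, nat_lit 1)], [(nat_lit 9, nat_lit 12, nat_lit 2), (nat_lit 18, nat_lit 18, nat_lit 2)], nat_lit 1, nat_lit 1, nat_lit 2⟩, ⟨[(nat_lit 27, nat_lit 6, nat_lit 1), (nat_lit 9, nat_lit 12, nat_lit 1), (nat_lit 18, nat_lit 12, nat_lit 1)], [(nat_lit 18, nat_lit 6, nat_lit 2), (nat_lit 27, nat_lit 12, nat_lit 2)], nat_lit 1, nat_lit 2, nat_lit 1⟩),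
 (⟨[(nat_lit 9, nat_lit 18, nat_lit 2), (nat_lit 18, nat_lit 12, nat_lit 1)], [(nat_lit 9, nat_lit 12, nat_lit 2), (nat_lit 18, nat_lit 6, nat_lit 1), (nat_lit 18, nat_lit 18, nat_lit 1)], nat_lit 1, nat_lit 1, nat_lit 2⟩, ⟨[(nat_lit 27, nat_lit 6, nat_lit 2), (nat_lit 18, nat_lit 12, nat_lit 1)], [(nat_lit 18, nat_lit 6, nat_lit 2), (nat_lit 9, nat_lit 12, nat_lit 1), (nat_lit 27, nat_lit 12, nat_lit 1)], nat_lit 1, nat_lit 2, nat_lit 1⟩),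
 (⟨[(nat_lit 9, nat_lit 18, nat_lit 2), (nat_lit 18, nat_lit 12, nat_lit 2)], [(nat_lit 9, nat_lit 12, nat_lit 2), (nat_lit 18, nat_lit 6, nat_lit 1), (nat_lit 18, nat_lit 18, nat_lit 2)], nat_lit 1, nat_lit 1, nat_lit 2⟩, ⟨[(nat_lit 27, nat_lit 6, nat_lit 2), (nat_lit 18, nat_lit 12, nat_lit 2)], [(nat_lit 18, nat_lit 6, nat_lit 2), (nat_lit 9, nat_lit 12, nat_lit 1), (nat_lit 27, nat_lit 12, nat_lit 2)], nat_lit 1, nat_lit 2, nat_lit 1⟩),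
 (⟨[(nat_lit 9, nat_lit 18, nat_lit 2), (nat_lit 18, nat_lit 12, nat_lit 2)], [(nat_lit 9, nat_lit 12, nat_lit 2), (nat_lit 18, nat_lit 6, nat_lit 1), (nat_lit 18, nat_lit 18, nat_lit 1)], nat_lit 0, nat_lit 1, nat_lit 2⟩, ⟨[(nat_lit 27, nat_lit 6, nat_lit 2), (nat_lit 18, nat_lit 12, nat_lit 2)], [(nat_lit 18, nat_lit 6, nat_lit 2), (nat_lit 9, nat_lit 12, nat_lit 1), (nat_lit 27, nat_lit 12, nat_lit 1)], nat_lit 0, nat_lit 2, nat_lit 1⟩),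
 (⟨[(nat_lit 9, nat_lit 18, nat_lit 2), (nat_lit 18, nat_lit 12, nat_lit 2)], [(nat_lit 9, nat_lit 12, nat_lit 2), (nat_lit 18, nat_lit 6, nat_lit 1)], nat_lit 1, nat_lit 1, nat_lit 2⟩, ⟨[(nat_lit 27, nat_lit 6, nat_lit 2), (nat_lit 18, nat_lit 12, nat_lit 2)], [(nat_lit 18, nat_lit 6, nat_lit 2), (nat_lit 9, nat_lit 12, nat_lit 1)], nat_lit 1, nat_lit 2, nat_lit 1⟩),
 (⟨[(nat_lit 9, nat_lit 18, nat_lit 2)], [(nat_lit 9, nat_lit 12, nat_lit 2), (nat_lit 18, nat_lit 18, nat_lit 2)], nat_lit 0, nat_lit 1, nat_lit 2⟩, ⟨[(nat_lit 27, nat_lit 6, nat_lit 2)], [(nat_lit 18, nat_lit 6, nat_lit 2), (nat_lit 27, nat_lit 12, nat_lit 2)], nat_lit 0, nat_lit 2, nat_lit 1⟩),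
 (⟨[(nat_lit 9, nat_lit 18, nat_lit 2), (nat_lit 18, nat_lit 12, nat_lit 1)], [(nat_lit 9, nat_lit 12, nat_lit 2), (nat_lit 18, nat_lit 18, nat_lit 2)], nat_lit 1, nat_lit 1, nat_lit 2⟩, ⟨[(nat_lit 27, nat_lit 6, nat_lit 2), (nat_lit 18, nat_lit 12, nat_lit 1)], [(nat_lit 18, nat_lit 6, nat_lit 2), (nat_lit 27, nat_lit 12, nat_lit 2)], nat_lit 1, nat_lit 2, nat_lit 1⟩),
 (⟨[(nat_lit 9, nat_lit 18, nat_lit 2), (nat_lit 18, nat_lit 12, nat_lit 2)], [(nat_lit 9, nat_lit 12, nat_lit 2), (nat_lit 18, nat_lit 18, nat_lit 3)], nat_lit 1, nat_lit 1, nat_lit 2⟩, ⟨[(nat_lit 27, nat_lit 6, nat_lit 2), (nat_lit 18, nat_lit 12, nat_lit 2)], [(nat_lit 18, nat_lit 6, nat_lit 2), (nat_lit 27, nat_lit 12, nat_lit 3)], nat_lit 1, nat_lit 2, nat_lit 1⟩),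
 (⟨[(nat_lit 9, nat_lit 18, nat_lit 2), (nat_lit 18, nat_lit 12, nat_lit 2)], [(nat_lit 9, nat_lit 12, nat_lit 2), (nat_lit 18, nat_lit 18, nat_lit 2)], nat_lit 0, nat_lit 1, nat_lit 2⟩, ⟨[(nat_lit 27, nat_lit 6, nat_lit 2), (nat_lit 18, nat_lit 12, nat_lit 2)], [(nat_lit 18, nat_lit 6, nat_lit 2), (nat_lit 27, nat_lit 12, nat_lit 2)], nat_lit 0, nat_lit 2, nat_lit 1⟩),
 (⟨[(nat_lit 18, nat_lit 18, nat_lit 2)], [(nat_lit 9, nat_lit 12, nat_lit 1), (nat_lit 9, nat_lit 18, nat_lit 1), (nat_lit 18, nat_lit 12, nat_lit 1)], nat_lit 1, nat_lit 1, nat_lit 2⟩, ⟨[(nat_lit 27, nat_lit 12, nat_lit 2)], [(nat_lit 18, nat_lit 6, nat_lit 1), (nat_lit 27, nat_lit 6, nat_lit 1), (nat_lit 18, nat_lit 12, nat_lit 1)], nat_lit 1, nat_lit 2, nat_lit 1⟩),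
 (⟨[(nat_lit 18, nat_lit 18, nat_lit 2)], [(nat_lit 9, nat_lit 12, nat_lit 1), (nat_lit 18, nat_lit 6, nat_lit 1), (nat_lit 18, nat_lit 12, nat_lit 1)], nat_lit 1, nat_lit 1, nat_lit 2⟩, ⟨[(nat_lit 27, nat_lit 12, nat_lit 2)], [(nat_lit 18, nat_lit 6, nat_lit 1), (nat_lit 9, nat_lit 12, nat_lit 1), (nat_lit 18, nat_lit 12, nat_lit 1)], nat_lit 1, nat_lit 2, nat_lit 1⟩),
 (⟨[(nat_lit 18, nat_lit 18, nat_lit 2)], [(nat_lit 9, nat_lit 12, nat_lit 1), (nat_lit 18, nat_lit 12, nat_lit 2)], nat_lit 1, nat_lit 1, nat_lit 2⟩, ⟨[(nat_lit 27, nat_lit 12, nat_lit 2)], [(nat_lit 18, nat_lit 6, nat_lit 1), (nat_lit 18, nat_lit 12, nat_lit 2)], nat_lit 1, nat_lit 2, nat_lit 1⟩),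
 (⟨[(nat_lit 18, nat_lit 18, nat_lit 2)], [(nat_lit 9, nat_lit 12, nat_lit 1), (nat_lit 18, nat_lit 12, nat_lit 1)], nat_lit 0, nat_lit 1, nat_lit 2⟩, ⟨[(nat_lit 27, nat_lit 12, nat_lit 2)], [(nat_lit 18, nat_lit 6, nat_lit 1), (nat_lit 18, nat_lit 12, nat_lit 1)], nat_lit 0, nat_lit 2, nat_lit 1⟩),
 (⟨[(nat_lit 18, nat_lit 12, nat_lit 2)], [(nat_lit 9, nat_lit 12, nat_lit 1), (nat_lit 18, nat_lit 18, nat_lit 2)], nat_lit 1, nat_lit 1, nat_lit 2⟩, ⟨[(nat_lit 18, nat_lit 12, nat_lit 2)], [(nat_lit 18, nat_lit 6, nat_lit 1), (nat_lit 27, nat_lit 12, nat_lit 2)], nat_lit 1, nat_lit 2, nat_lit 1⟩),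
 (⟨[(nat_lit 9, nat_lit 18, nat_lit 1), (nat_lit 18, nat_lit 18, nat_lit 1)], [(nat_lit 9, nat_lit 12, nat_lit 1), (nat_lit 18, nat_lit 6, nat_lit 1), (nat_lit 18, nat_lit 12, nat_lit 1)], nat_lit 1, nat_lit 1, nat_lit 2⟩, ⟨[(nat_lit 27, nat_lit 6, nat_lit 1), (nat_lit 27, nat_lit 12, nat_lit 1)], [(nat_lit 18, nat_lit 6, nat_lit 1), (nat_lit 9, nat_lit 12, nat_lit 1), (nat_lit 18, nat_lit 12, nat_lit 1)], nat_lit 1, nat_lit 2, nat_lit 1⟩),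
 (⟨[(nat_lit 9, nat_lit 18, nat_lit 1), (nat_lit 18, nat_lit 12, nat_lit 2)], [(nat_lit 9, nat_lit 12, nat_lit 1), (nat_lit 18, nat_lit 6, nat_lit 1), (nat_lit 18, nat_lit 18, nat_lit 2)], nat_lit 1, nat_lit 1, nat_lit 2⟩, ⟨[(nat_lit 27, nat_lit 6, nat_lit 1), (nat_lit 18, nat_lit 12, nat_lit 2)], [(nat_lit 18, nat_lit 6, nat_lit 1), (nat_lit 9, nat_lit 12, nat_lit 1), (nat_lit 27, nat_lit 12, nat_lit 2)], nat_lit 1, nat_lit 2, nat_lit 1⟩),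
 (⟨[(nat_lit 9, nat_lit 18, nat_lit 1), (nat_lit 18, nat_lit 18, nat_lit 1)], [(nat_lit 9, nat_lit 12, nat_lit 1), (nat_lit 18, nat_lit 12, nat_lit 2)], nat_lit 1, nat_lit 1, nat_lit 2⟩, ⟨[(nat_lit 27, nat_lit 6, nat_lit 1), (nat_lit 27, nat_lit 12, nat_lit 1)], [(nat_lit 18, nat_lit 6, nat_lit 1), (nat_lit 18, nat_lit 12, nat_lit 2)], nat_lit 1, nat_lit 2, nat_lit 1⟩),
 (⟨[(nat_lit 9, nat_lit 18, nat_lit 1)], [(nat_lit 9, nat_lit 12, nat_lit 1), (nat_lit 18, nat_lit 12, nat_lit 1), (nat_lit 18, nat_lit 18, nat_lit 2)], nat_lit 1, nat_lit 1, nat_lit 2⟩, ⟨[(nat_lit 27, nat_lit 6, nat_lit 1)], [(nat_lit 18, nat_lit 6, nat_lit 1), (nat_lit 18, nat_lit 12, nat_lit 1), (nat_lit 27, nat_lit 12, nat_lit 2)], nat_lit 1, nat_lit 2, nat_lit 1⟩),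
 (⟨[(nat_lit 9, nat_lit 18, nat_lit 1), (nat_lit 18, nat_lit 12, nat_lit 2)], [(nat_lit 9, nat_lit 12, nat_lit 1), (nat_lit 18, nat_lit 18, nat_lit 3)], nat_lit 1, nat_lit 1, nat_lit 2⟩, ⟨[(nat_lit 27, nat_lit 6, nat_lit 1), (nat_lit 18, nat_lit 12, nat_lit 2)], [(nat_lit 18, nat_lit 6, nat_lit 1), (nat_lit 27, nat_lit 12, nat_lit 3)], nat_lit 1, nat_lit 2, nat_lit 1⟩),
 (⟨[(nat_lit 9, nat_lit 18, nat_lit 1), (nat_lit 18, nat_lit 12, nat_lit 2)], [(nat_lit 9, nat_lit 12, nat_lit 1), (nat_lit 18, nat_lit 18, nat_lit 2)], nat_lit 0, nat_lit 1, nat_lit 2⟩, ⟨[(nat_lit 27, nat_lit 6, nat_lit 1), (nat_lit 18, nat_lit 12, nat_lit 2)], [(nat_lit 18, nat_lit 6, nat_lit 1), (nat_lit 27, nat_lit 12, nat_lit 2)], nat_lit 0, nat_lit 2, nat_lit 1⟩)]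

def fl3 : List (Fg × Fg) := [
 (⟨[(nat_lit 18, nat_lit 18, nat_lit 2)], [(nat_lit 18, nat_lit 6, nat_lit 1), (nat_lit 18, nat_lit 12, nat_lit 2)], nat_lit 1, nat_lit 1, nat_lit 2⟩, ⟨[(nat_lit 27, nat_lit 12, nat_lit 2)], [(nat_lit 9, nat_lit 12, nat_lit 1), (nat_lit 18, nat_lit 12, nat_lit 2)], nat_lit 1, nat_lit 2, nat_lit 1⟩),
 (⟨[(nat_lit 18, nat_lit 18, nat_lit 2)], [(nat_lit 18, nat_lit 12, nat_lit 3)], nat_lit 1, nat_lit 1, nat_lit 2⟩, ⟨[(nat_lit 27, nat_lit 12, nat_lit 2)], [(nat_lit 18, nat_lit 12, nat_lit 3)], nat_lit 1, nat_lit 2, nat_lit 1⟩),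
 (⟨[(nat_lit 18, nat_lit 18, nat_lit 2)], [(nat_lit 18, nat_lit 12, nat_lit 2)], nat_lit 0, nat_lit 1, nat_lit 2⟩, ⟨[(nat_lit 27, nat_lit 12, nat_lit 2)], [(nat_lit 18, nat_lit 12, nat_lit 2)], nat_lit 0, nat_lit 2, nat_lit 1⟩),
 (⟨[(nat_lit 9, nat_lit 12, nat_lit 1)], [(nat_lit 9, nat_lit 6, nat_lit 1)], nat_lit 0, nat_lit 0, nat_lit 1⟩, ⟨[(nat_lit 18, nat_lit 6, nat_lit 1)], [(nat_lit 9, nat_lit 6, nat_lit 1)], nat_lit 0, nat_lit 1, nat_lit 0⟩),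
 (⟨[], [(nat_lit 9, nat_lit 12, nat_lit 1)], nat_lit 1, nat_lit 0, nat_lit 1⟩, ⟨[], [(nat_lit 18, nat_lit 6, nat_lit 1)], nat_lit 1, nat_lit 1, nat_lit 0⟩),
 (⟨[], [(nat_lit 9, nat_lit 6, nat_lit 1), (nat_lit 9, nat_lit 12, nat_lit 1)], nat_lit 0, nat_lit 0, nat_lit 1⟩, ⟨[], [(nat_lit 9, nat_lit 6, nat_lit 1), (nat_lit 18, nat_lit 6, nat_lit 1)], nat_lit 0, nat_lit 1, nat_lit 0⟩),
 (⟨[(nat_lit 18, nat_lit 6, nat_lit 1)], [(nat_lit 9, nat_lit 6, nat_lit 3)], nat_lit 0, nat_lit 1, nat_lit 0⟩, ⟨[(nat_lit 9, nat_lit 12, nat_lit 1)], [(nat_lit 9, nat_lit 6, nat_lit 3)], nat_lit 0, nat_lit 0, nat_lit 1⟩),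
 (⟨[], [(nat_lit 9, nat_lit 6, nat_lit 2), (nat_lit 18, nat_lit 6, nat_lit 1)], nat_lit 1, nat_lit 1, nat_lit 0⟩, ⟨[], [(nat_lit 9, nat_lit 6, nat_lit 2), (nat_lit 9, nat_lit 12, nat_lit 1)], nat_lit 1, nat_lit 0, nat_lit 1⟩),
 (⟨[(nat_lit 18, nat_lit 6, nat_lit 1)], [(nat_lit 9, nat_lit 6, nat_lit 2)], nat_lit 1, nat_lit 1, nat_lit 0⟩, ⟨[(nat_lit 9, nat_lit 12, nat_lit 1)], [(nat_lit 9, nat_lit 6, nat_lit 2)], nat_lit 1, nat_lit 0, nat_lit 1⟩),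
 (⟨[(nat_lit 9, nat_lit 6, nat_lit 1), (nat_lit 18, nat_lit 12, nat_lit 1)], [(nat_lit 9, nat_lit 12, nat_lit 2), (nat_lit 18, nat_lit 6, nat_lit 1)], nat_lit 1, nat_lit 1, nat_lit 1⟩, ⟨[(nat_lit 9, nat_lit 6, nat_lit 1), (nat_lit 18, nat_lit 12, nat_lit 1)], [(nat_lit 18, nat_lit 6, nat_lit 2), (nat_lit 9, nat_lit 12, nat_lit 1)], nat_lit 1, nat_lit 1, nat_lit 1⟩),
 (⟨[(nat_lit 18, nat_lit 6, nat_lit 1)], [(nat_lit 9, nat_lit 6, nat_lit 1), (nat_lit 18, nat_lit 12, nat_lit 1)], nat_lit 1, nat_lit 1, nat_lit 1⟩, ⟨[(nat_lit 9, nat_lit 12, nat_lit 1)], [(nat_lit 9, nat_lit 6, nat_lit 1), (nat_lit 18, nat_lit 12, nat_lit 1)], nat_lit 1, nat_lit 1, nat_lit 1⟩),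
 (⟨[(nat_lit 9, nat_lit 12, nat_lit 1)], [(nat_lit 9, nat_lit 6, nat_lit 1), (nat_lit 9, nat_lit 18, nat_lit 1)], nat_lit 1, nat_lit 0, nat_lit 2⟩, ⟨[(nat_lit 18, nat_lit 6, nat_lit 1)], [(nat_lit 9, nat_lit 6, nat_lit 1), (nat_lit 27, nat_lit 6, nat_lit 1)], nat_lit 1, nat_lit 2, nat_lit 0⟩),
 (⟨[(nat_lit 9, nat_lit 12, nat_lit 1), (nat_lit 18, nat_lit 12, nat_lit 1)], [(nat_lit 9, nat_lit 6, nat_lit 1)], nat_lit 1, nat_lit 1, nat_lit 1⟩, ⟨[(nat_lit 18, nat_lit 6, nat_lit 1), (nat_lit 18, nat_lit 12, nat_lit 1)], [(nat_lit 9, nat_lit 6, nat_lit 1)], nat_lit 1, nat_lit 1, nat_lit 1⟩),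
 (⟨[(nat_lit 9, nat_lit 12, nat_lit 1), (nat_lit 9, nat_lit 18, nat_lit 1)], [(nat_lit 9, nat_lit 6, nat_lit 1)], nat_lit 1, nat_lit 0, nat_lit 2⟩, ⟨[(nat_lit 18, nat_lit 6, nat_lit 1), (nat_lit 27, nat_lit 6, nat_lit 1)], [(nat_lit 9, nat_lit 6, nat_lit 1)], nat_lit 1, nat_lit 2, nat_lit 0⟩),
 (⟨[(nat_lit 9, nat_lit 12, nat_lit 2)], [(nat_lit 9, nat_lit 6, nat_lit 2), (nat_lit 18, nat_lit 12, nat_lit 1)], nat_lit 1, nat_lit 1, nat_lit 1⟩, ⟨[(nat_lit 18, nat_lit 6, nat_lit 2)], [(nat_lit 9, nat_lit 6, nat_lit 2), (nat_lit 18, nat_lit 12, nat_lit 1)], nat_lit 1, nat_lit 1, nat_lit 1⟩),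
 (⟨[(nat_lit 9, nat_lit 18, nat_lit 1)], [(nat_lit 9, nat_lit 12, nat_lit 2)], nat_lit 1, nat_lit 0, nat_lit 2⟩, ⟨[(nat_lit 27, nat_lit 6, nat_lit 1)], [(nat_lit 18, nat_lit 6, nat_lit 2)], nat_lit 1, nat_lit 2, nat_lit 0⟩),
 (⟨[(nat_lit 9, nat_lit 12, nat_lit 1), (nat_lit 18, nat_lit 6, nat_lit 1)], [(nat_lit 9, nat_lit 6, nat_lit 1)], nat_lit 1, nat_lit 1, nat_lit 1⟩, ⟨[(nat_lit 18, nat_lit 6, nat_lit 1), (nat_lit 9, nat_lit 12, nat_lit 1)], [(nat_lit 9, nat_lit 6, nat_lit 1)], nat_lit 1, nat_lit 1, nat_lit 1⟩),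
 (⟨[(nat_lit 9, nat_lit 12, nat_lit 2)], [(nat_lit 9, nat_lit 6, nat_lit 1), (nat_lit 9, nat_lit 18, nat_lit 1)], nat_lit 0, nat_lit 0, nat_lit 2⟩, ⟨[(nat_lit 18, nat_lit 6, nat_lit 2)], [(nat_lit 9, nat_lit 6, nat_lit 1), (nat_lit 27, nat_lit 6, nat_lit 1)], nat_lit 0, nat_lit 2, nat_lit 0⟩),
 (⟨[(nat_lit 9, nat_lit 12, nat_lit 1), (nat_lit 18, nat_lit 12, nat_lit 1)], [(nat_lit 9, nat_lit 6, nat_lit 1), (nat_lit 18, nat_lit 6, nat_lit 1)], nat_lit 0, nat_lit 1, nat_lit 1⟩, ⟨[(nat_lit 18, nat_lit 6, nat_lit 1), (nat_lit 18, nat_lit 12, nat_lit 1)], [(nat_lit 9, nat_lit 6, nat_lit 1), (nat_lit 9, nat_lit 12, nat_lit 1)], nat_lit 0, nat_lit 1, nat_lit 1⟩),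
 (⟨[(nat_lit 9, nat_lit 12, nat_lit 1), (nat_lit 18, nat_lit 6, nat_lit 1)], [(nat_lit 9, nat_lit 6, nat_lit 1), (nat_lit 18, nat_lit 12, nat_lit 1)], nat_lit 0, nat_lit 1, nat_lit 1⟩, ⟨[(nat_lit 18, nat_lit 6, nat_lit 1), (nat_lit 9, nat_lit 12, nat_lit 1)], [(nat_lit 9, nat_lit 6, nat_lit 1), (nat_lit 18, nat_lit 12, nat_lit 1)], nat_lit 0, nat_lit 1, nat_lit 1⟩),
 (⟨[(nat_lit 9, nat_lit 12, nat_lit 1), (nat_lit 18, nat_lit 12, nat_lit 1)], [(nat_lit 18, nat_lit 6, nat_lit 1)], nat_lit 1, nat_lit 1, nat_lit 1⟩, ⟨[(nat_lit 18, nat_lit 6, nat_lit 1), (nat_lit 18, nat_lit 12, nat_lit 1)], [(nat_lit 9, nat_lit 12, nat_lit 1)], nat_lit 1, nat_lit 1, nat_lit 1⟩),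
 (⟨[], [(nat_lit 9, nat_lit 12, nat_lit 2), (nat_lit 18, nat_lit 12, nat_lit 1)], nat_lit 1, nat_lit 1, nat_lit 1⟩, ⟨[], [(nat_lit 18, nat_lit 6, nat_lit 2), (nat_lit 18, nat_lit 12, nat_lit 1)], nat_lit 1, nat_lit 1, nat_lit 1⟩),
 (⟨[], [(nat_lit 9, nat_lit 12, nat_lit 1), (nat_lit 9, nat_lit 18, nat_lit 2)], nat_lit 1, nat_lit 0, nat_lit 2⟩, ⟨[], [(nat_lit 18, nat_lit 6, nat_lit 1), (nat_lit 27, nat_lit 6, nat_lit 2)], nat_lit 1, nat_lit 2, nat_lit 0⟩),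
 (⟨[], [(nat_lit 9, nat_lit 12, nat_lit 1), (nat_lit 18, nat_lit 12, nat_lit 1)], nat_lit 0, nat_lit 1, nat_lit 1⟩, ⟨[], [(nat_lit 18, nat_lit 6, nat_lit 1), (nat_lit 18, nat_lit 12, nat_lit 1)], nat_lit 0, nat_lit 1, nat_lit 1⟩),
 (⟨[], [(nat_lit 9, nat_lit 12, nat_lit 1), (nat_lit 9, nat_lit 18, nat_lit 1)], nat_lit 0, nat_lit 0, nat_lit 2⟩, ⟨[], [(nat_lit 18, nat_lit 6, nat_lit 1), (nat_lit 27, nat_lit 6, nat_lit 1)], nat_lit 0, nat_lit 2, nat_lit 0⟩),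
 (⟨[(nat_lit 9, nat_lit 12, nat_lit 2), (nat_lit 18, nat_lit 6, nat_lit 1)], [(nat_lit 9, nat_lit 6, nat_lit 2), (nat_lit 18, nat_lit 12, nat_lit 1)], nat_lit 0, nat_lit 1, nat_lit 1⟩, ⟨[(nat_lit 18, nat_lit 6, nat_lit 2), (nat_lit 9, nat_lit 12, nat_lit 1)], [(nat_lit 9, nat_lit 6, nat_lit 2), (nat_lit 18, nat_lit 12, nat_lit 1)], nat_lit 0, nat_lit 1, nat_lit 1⟩),
 (⟨[(nat_lit 18, nat_lit 12, nat_lit 1)], [(nat_lit 18, nat_lit 6, nat_lit 1)], nat_lit 0, nat_lit 1, nat_lit 1⟩, ⟨[(nat_lit 18, nat_lit 12, nat_lit 1)], [(nat_lit 9, nat_lit 12, nat_lit 1)], nat_lit 0, nat_lit 1, nat_lit 1⟩),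
 (⟨[(nat_lit 9, nat_lit 12, nat_lit 2), (nat_lit 18, nat_lit 6, nat_lit 1)], [(nat_lit 9, nat_lit 6, nat_lit 2)], nat_lit 1, nat_lit 1, nat_lit 1⟩, ⟨[(nat_lit 18, nat_lit 6, nat_lit 2), (nat_lit 9, nat_lit 12, nat_lit 1)], [(nat_lit 9, nat_lit 6, nat_lit 2)], nat_lit 1, nat_lit 1, nat_lit 1⟩),
 (⟨[], [(nat_lit 18, nat_lit 12, nat_lit 1)], nat_lit 1, nat_lit 1, nat_lit 1⟩, ⟨[], [(nat_lit 18, nat_lit 12, nat_lit 1)], nat_lit 1, nat_lit 1, nat_lit 1⟩),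
 (⟨[(nat_lit 18, nat_lit 12, nat_lit 1)], [(nat_lit 9, nat_lit 12, nat_lit 2)], nat_lit 1, nat_lit 1, nat_lit 1⟩, ⟨[(nat_lit 18, nat_lit 12, nat_lit 1)], [(nat_lit 18, nat_lit 6, nat_lit 2)], nat_lit 1, nat_lit 1, nat_lit 1⟩),
 (⟨[(nat_lit 18, nat_lit 12, nat_lit 1)], [(nat_lit 9, nat_lit 12, nat_lit 1), (nat_lit 18, nat_lit 6, nat_lit 1)], nat_lit 1, nat_lit 1, nat_lit 1⟩, ⟨[(nat_lit 18, nat_lit 12, nat_lit 1)], [(nat_lit 18, nat_lit 6, nat_lit 1), (nat_lit 9, nat_lit 12, nat_lit 1)], nat_lit 1, nat_lit 1, nat_lit 1⟩),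
 (⟨[(nat_lit 9, nat_lit 12, nat_lit 1)], [(nat_lit 9, nat_lit 18, nat_lit 1)], nat_lit 0, nat_lit 0, nat_lit 2⟩, ⟨[(nat_lit 18, nat_lit 6, nat_lit 1)], [(nat_lit 27, nat_lit 6, nat_lit 1)], nat_lit 0, nat_lit 2, nat_lit 0⟩)]

def fl : List (Fg × Fg) := fl0 ++ (fl1 ++ (fl2 ++ (fl3)))

theorem okfl : fl.all okF = true := by decide +kernel

end Vale.Agent.P355.H909Y
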